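import Mathlib.Algebra.BigOperators.Ring.Finset
import Mathlib.Algebra.Order.BigOperators.Ring.Finset
import Mathlib.Analysis.MeanInequalities
import Mathlib.Data.Fintype.BigOperators
import Mathlib.Tactic

/-!
# P336: assigning views to classes

Random classes for the views (second moment), with weights adapted to the blocks.
-/

set_option autoImplicit false

open Finset

namespace Vale.Agent.P336.R2.H524

/-- the weight of an assignment -/
noncomputable def wt {ι : Type} [Fintype ι] {p : ℕ} (q : Fin p → ℝ) (c : ι → Fin p) : ℝ :=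
  ∏ t, q (c t)

open scoped Classical in
/-- indicator: no view of `S` is in the class `i` -/
noncomputable def ind {ι : Type} {p : ℕ} (i : Fin p) (S : Finset ι) (c : ι → Fin p) : ℝ :=
  if ∀ t ∈ S, c t ≠ i then 1 else 0

theorem ind_nonneg {ι : Type} {p : ℕ} (i : Fin p) (S : Finset ι) (c : ι → Fin p) :
    0 ≤ ind i S c := by
  unfold ind; split_ifs <;> norm_num

theorem ind_mul {ι : Type} [DecidableEq ι] {p : ℕ} (i : Fin p) (S T : Finset ι) (c : ι → Fin p) :
    ind i S c * ind i T c = ind i (S ∪ T) c := by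
  unfold ind
  by_cases h1 : ∀ t ∈ S, c t ≠ i
  · by_cases h2 : ∀ t ∈ T, c t ≠ i
    · rw [if_pos h1, if_pos h2, if_pos, one_mul]
      intro t ht
      rcases Finset.mem_union.mp ht with h | h
      · exact h1 t h
      · exact h2 t h
    · have h3 : ¬ ∀ t ∈ S ∪ T, c t ≠ i :=
        fun h => h2 (fun t ht => h t (Finset.mem_union_right _ ht))
      rw [if_neg h2, if_neg h3, mul_zero]
  · have h3 : ¬ ∀ t ∈ S ∪ T, c t ≠ i :=
      fun h => h1 (fun t ht => h t (Finset.mem_union_left _ ht))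
    rw [if_neg h1, if_neg h3, zero_mul]

theorem wt_nonneg {ι : Type} [Fintype ι] {p : ℕ} (q : Fin p → ℝ) (hq : ∀ i, 0 ≤ q i)
    (c : ι → Fin p) : 0 ≤ wt q c := Finset.prod_nonneg (fun t _ => hq (c t))

/-- expectation of the indicator -/
theorem exp_ind {ι : Type} [Fintype ι] [DecidableEq ι] {p : ℕ} (q : Fin p → ℝ) (hq1 : ∑ i, q i = 1)
    (i : Fin p) (S : Finset ι) :
    ∑ c : ι → Fin p, wt q c * ind i S c = (1 - q i) ^ S.card := by
  classical
  have h1 : ∀ c : ι → Fin p, wt q c * ind i S c =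
      ∏ t, (q (c t) * (if t ∈ S then (if c t = i then 0 else 1) else 1)) := by
    intro c
    rw [Finset.prod_mul_distrib]
    unfold wt
    congr 1
    unfold ind
    by_cases h : ∀ t ∈ S, c t ≠ i
    · rw [if_pos h]
      symm
      apply Finset.prod_eq_one
      intro t _
      by_cases a : t ∈ S
      · rw [if_pos a, if_neg (h t a)]
      · rw [if_neg a]
    · rw [if_neg h]
      push Not at h
      obtain ⟨t, ht, hti⟩ := h
      symm
      apply Finset.prod_eq_zero (Finset.mem_univ t)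
      rw [if_pos ht, if_pos hti]
  have h2 : ∑ c : ι → Fin p, ∏ t, (q (c t) * (if t ∈ S then (if c t = i then (0:ℝ) else 1) else 1)) =
      ∏ t : ι, ∑ j : Fin p, (q j * (if t ∈ S then (if j = i then (0:ℝ) else 1) else 1)) := by
    rw [Finset.prod_univ_sum, Fintype.piFinset_univ]
  have h3 : ∀ t : ι, ∑ j : Fin p, (q j * (if t ∈ S then (if j = i then (0:ℝ) else 1) else 1)) =
      if t ∈ S then (1 - q i) else 1 := by
    intro t
    by_cases a : t ∈ S
    · rw [if_pos a]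
      have e : ∀ j : Fin p, q j * (if t ∈ S then (if j = i then (0:ℝ) else 1) else 1) =
          q j - if j = i then q j else 0 := by
        intro j
        rw [if_pos a]
        by_cases b : j = i
        · rw [if_pos b, if_pos b]; ring
        · rw [if_neg b, if_neg b]; ring
      rw [Finset.sum_congr rfl (fun j _ => e j), Finset.sum_sub_distrib, hq1]
      simp
    · simp [a, hq1]
  rw [Finset.sum_congr rfl (fun c _ => h1 c), h2, Finset.prod_congr rfl (fun t _ => h3 t),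
    Finset.prod_ite_mem, Finset.univ_inter, Finset.prod_const]

/-- total weight one -/
theorem sum_wt {ι : Type} [Fintype ι] [DecidableEq ι] {p : ℕ} (q : Fin p → ℝ) (hq1 : ∑ i, q i = 1)
    (i : Fin p) : ∑ c : ι → Fin p, wt q c = 1 := by
  have h := exp_ind (ι := ι) q hq1 i ∅
  simpa [ind] using h

/-- the second moment -/
theorem var_le {ι U : Type} [Fintype ι] [DecidableEq ι] {p : ℕ} (q : Fin p → ℝ)
    (hq : ∀ i, 0 ≤ q i) (hq1 : ∑ i, q i = 1) (hq2 : ∀ i, q i ≤ 1) (i : Fin p)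
    (L : Finset U) (S : U → Finset ι) (K : ℝ)
    (hK : ∀ u ∈ L, ∃ N : Finset U, (N.card : ℝ) ≤ K ∧ ∀ v ∈ L, v ∉ N → Disjoint (S u) (S v)) :
    ∑ c : ι → Fin p, wt q c * (∑ u ∈ L, ind i (S u) c - ∑ u ∈ L, (1 - q i) ^ (S u).card) ^ 2 ≤
      K * ∑ u ∈ L, (1 - q i) ^ (S u).card := by
  set μ : ℝ := ∑ u ∈ L, (1 - q i) ^ (S u).card with hμ
  have hs0 : 0 ≤ 1 - q i := by linarith [hq2 i]
  have hs1 : 1 - q i ≤ 1 := by linarith [hq i]
  have e1 : ∑ c : ι → Fin p, wt q c * (∑ u ∈ L, ind i (S u) c) = μ := by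
    rw [hμ]
    simp_rw [Finset.mul_sum]
    rw [Finset.sum_comm]
    exact Finset.sum_congr rfl (fun u _ => exp_ind q hq1 i (S u))
  have e2 : ∑ c : ι → Fin p, wt q c * (∑ u ∈ L, ind i (S u) c) ^ 2 =
      ∑ u ∈ L, ∑ v ∈ L, (1 - q i) ^ (S u ∪ S v).card := by
    have : ∀ c : ι → Fin p, wt q c * (∑ u ∈ L, ind i (S u) c) ^ 2 =
        ∑ u ∈ L, ∑ v ∈ L, wt q c * ind i (S u ∪ S v) c := by
      intro c
      rw [sq, Finset.sum_mul_sum, Finset.mul_sum]
      refine Finset.sum_congr rfl (fun u _ => ?_)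
      rw [Finset.mul_sum]
      refine Finset.sum_congr rfl (fun v _ => ?_)
      rw [ind_mul]
    rw [Finset.sum_congr rfl (fun c _ => this c), Finset.sum_comm]
    refine Finset.sum_congr rfl (fun u _ => ?_)
    rw [Finset.sum_comm]
    exact Finset.sum_congr rfl (fun v _ => exp_ind q hq1 i _)
  have e3 : ∑ c : ι → Fin p, wt q c * (∑ u ∈ L, ind i (S u) c - μ) ^ 2 =
      ∑ c : ι → Fin p, wt q c * (∑ u ∈ L, ind i (S u) c) ^ 2 -
        2 * μ * ∑ c : ι → Fin p, wt q c * (∑ u ∈ L, ind i (S u) c) +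
        μ ^ 2 * ∑ c : ι → Fin p, wt q c := by
    clear_value μ
    rw [Finset.mul_sum, Finset.mul_sum, ← Finset.sum_sub_distrib, ← Finset.sum_add_distrib]
    refine Finset.sum_congr rfl (fun c _ => ?_)
    ring
  rw [e3, e1, e2, sum_wt q hq1 i]
  have h4 : ∀ u ∈ L, ∑ v ∈ L, (1 - q i) ^ (S u ∪ S v).card ≤
      (1 - q i) ^ (S u).card * μ + K * (1 - q i) ^ (S u).card := by
    intro u hu
    obtain ⟨N, hN, hdis⟩ := hK u hu
    classical
    have h5 : ∀ v ∈ L, (1 - q i) ^ (S u ∪ S v).card ≤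
        (1 - q i) ^ (S u).card * (1 - q i) ^ (S v).card +
          (if v ∈ N then (1 - q i) ^ (S u).card else 0) := by
      intro v hv
      by_cases hvN : v ∈ N
      · rw [if_pos hvN]
        have h6 : (1 - q i) ^ (S u ∪ S v).card ≤ (1 - q i) ^ (S u).card :=
          pow_le_pow_of_le_one hs0 hs1 (Finset.card_le_card Finset.subset_union_left)
        have h7 : 0 ≤ (1 - q i) ^ (S u).card * (1 - q i) ^ (S v).card := by positivity
        linarith
      · rw [if_neg hvN, add_zero, ← pow_add, Finset.card_union_of_disjoint (hdis v hv hvN)]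
    refine (Finset.sum_le_sum h5).trans ?_
    rw [Finset.sum_add_distrib, ← Finset.mul_sum, ← hμ]
    have h8 : ∑ v ∈ L, (if v ∈ N then (1 - q i) ^ (S u).card else 0) ≤
        K * (1 - q i) ^ (S u).card := by
      rw [← Finset.sum_filter, Finset.sum_const, nsmul_eq_mul]
      apply mul_le_mul_of_nonneg_right _ (by positivity)
      refine le_trans ?_ hN
      exact_mod_cast Finset.card_le_card (fun v hv => (Finset.mem_filter.mp hv).2)
    linarith
  have h9 : ∑ u ∈ L, ∑ v ∈ L, (1 - q i) ^ (S u ∪ S v).card ≤ μ * μ + K * μ := by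
    refine (Finset.sum_le_sum h4).trans ?_
    rw [Finset.sum_add_distrib, ← Finset.sum_mul, ← Finset.mul_sum, ← hμ]
  nlinarith [h9]

/-- lower bound for the power -/
theorem pow_lower {q : ℝ} (hq0 : 0 ≤ q) (hq1 : q ≤ 1 / 2) {s P : ℕ} (h : 2 * q * s ≤ P) :
    (1 / 2 : ℝ) ^ P ≤ (1 - q) ^ s := by
  have h1 := Real.geom_mean_le_arith_mean2_weighted (w₁ := 2 * q) (w₂ := 1 - 2 * q)
    (p₁ := 1 / 2) (p₂ := 1) (by linarith) (by linarith) (by norm_num) (by norm_num) (by ring)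
  rw [Real.one_rpow, mul_one] at h1
  have h2 : (1 / 2 : ℝ) ^ (2 * q) ≤ 1 - q := by linarith
  have h3 : ((1 / 2 : ℝ) ^ (2 * q)) ^ s ≤ (1 - q) ^ s :=
    pow_le_pow_left₀ (by positivity) h2 s
  refine le_trans ?_ h3
  rw [← Real.rpow_natCast (x := (1 / 2 : ℝ) ^ (2 * q)), ← Real.rpow_mul (by norm_num),
    ← Real.rpow_natCast]
  exact Real.rpow_le_rpow_of_exponent_ge (by norm_num) (by norm_num) h

/-- counting: incidences of a column set -/
theorem deg_sum {p m : ℕ} {ι : Type} [Fintype ι] [DecidableEq ι]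
    (V : ι → Finset (Fin p × Fin m)) :
    ∑ i : Fin p, ∑ v : Fin m, (univ.filter (fun t => (i, v) ∈ V t)).card =
      ∑ t, (V t).card := by
  rw [← Fintype.sum_prod_type' (fun i v => (univ.filter (fun t => (i, v) ∈ V t)).card)]
  simp_rw [Finset.card_filter]
  rw [Finset.sum_comm]
  refine Finset.sum_congr rfl (fun t _ => ?_)
  simp

theorem four_lt {p : ℕ} (hp : 4 ≤ p) : 16 * (p : ℝ) ^ 4 < 2 ^ (12 * p) := by
  have h1 : (p : ℝ) < 2 ^ p := by exact_mod_cast Nat.lt_two_pow_self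
  have h2 : (p : ℝ) ^ 4 < (2 ^ p) ^ 4 := by gcongr
  have h3 : (16 : ℝ) ≤ 2 ^ p := by
    calc (16 : ℝ) = 2 ^ 4 := by norm_num
      _ ≤ 2 ^ p := pow_le_pow_right₀ (by norm_num) hp
  have h4 : (2 : ℝ) ^ (12 * p) = 2 ^ p * (2 ^ p) ^ 4 * 2 ^ (7 * p) := by
    rw [← pow_mul, ← pow_add, ← pow_add]
    congr 1
    ring
  have h5 : (1 : ℝ) ≤ 2 ^ (7 * p) := one_le_pow₀ (by norm_num)
  have h6 : (0 : ℝ) < (2 ^ p) ^ 4 := by positivity
  rw [h4]
  calc 16 * (p : ℝ) ^ 4 < 16 * (2 ^ p) ^ 4 := by linarith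
    _ ≤ 2 ^ p * (2 ^ p) ^ 4 := by nlinarith
    _ = 2 ^ p * (2 ^ p) ^ 4 * 1 := by ring
    _ ≤ _ := by gcongr

/-- the weights of the classes -/
theorem weights {p : ℕ} (hp : 4 ≤ p) (D : Fin p → ℝ) (hD0 : ∀ i, 0 ≤ D i)
    (hDs : ∑ i, D i ≤ (p : ℝ) ^ 3) : ∃ q e : Fin p → ℝ, (∀ i, D i ≤ e i) ∧ (∀ i, 0 < e i) ∧
      (∀ i, e i ≤ (p : ℝ) ^ 3) ∧ (∀ i, 0 ≤ q i) ∧ ∑ i, q i = 1 ∧ (∀ i, q i * e i ≤ 2 * p) ∧
      (∀ i, q i ≤ 1 / 2) := by
  have hp0 : (4 : ℝ) ≤ p := by exact_mod_cast hp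
  obtain ⟨e, he⟩ : ∃ e : Fin p → ℝ, e = fun i => max (D i) ((p : ℝ) ^ 2) := ⟨_, rfl⟩
  have hep : ∀ i, (p : ℝ) ^ 2 ≤ e i := fun i => by rw [he]; exact le_max_right _ _
  have heD : ∀ i, D i ≤ e i := fun i => by rw [he]; exact le_max_left _ _
  have he0 : ∀ i, 0 < e i := fun i => lt_of_lt_of_le (by positivity) (hep i)
  have he3 : ∀ i, e i ≤ (p : ℝ) ^ 3 := by
    intro i
    rw [he]
    apply max_le
    · exact (Finset.single_le_sum (f := D) (fun j _ => hD0 j) (Finset.mem_univ i)).trans hDs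
    · apply pow_le_pow_right₀ (by linarith) (by norm_num)
  have hes : ∑ i, e i ≤ 2 * (p : ℝ) ^ 3 := by
    have h1 : ∀ i ∈ (univ : Finset (Fin p)), e i ≤ D i + (p : ℝ) ^ 2 := by
      intro i _
      rw [he]
      apply max_le
      · have := sq_nonneg (p : ℝ); linarith
      · linarith [hD0 i]
    have h2 := Finset.sum_le_sum h1
    rw [Finset.sum_add_distrib, Finset.sum_const, Finset.card_univ, Fintype.card_fin,
      nsmul_eq_mul] at h2
    have h3 : (p : ℝ) * (p : ℝ) ^ 2 = (p : ℝ) ^ 3 := by ring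
    linarith
  obtain ⟨R, hR⟩ : ∃ R : ℝ, R = ∑ i, 1 / e i := ⟨_, rfl⟩
  have hR1 : 1 / (2 * (p : ℝ)) ≤ R := by
    have h1 : ∀ i ∈ (univ : Finset (Fin p)),
        (4 * (p : ℝ) ^ 2 - e i) / (4 * (p : ℝ) ^ 4) ≤ 1 / e i := by
      intro i _
      rw [div_le_div_iff₀ (by positivity) (he0 i)]
      nlinarith [sq_nonneg (e i - 2 * (p : ℝ) ^ 2)]
    have h2 := Finset.sum_le_sum h1
    rw [← hR, ← Finset.sum_div, Finset.sum_sub_distrib, Finset.sum_const, Finset.card_univ,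
      Fintype.card_fin, nsmul_eq_mul] at h2
    refine le_trans ?_ h2
    rw [div_le_div_iff₀ (by positivity) (by positivity)]
    have h3 : (p : ℝ) * (4 * (p : ℝ) ^ 2) - ∑ i, e i ≥ 2 * (p : ℝ) ^ 3 := by
      have : (p : ℝ) * (4 * (p : ℝ) ^ 2) = 4 * (p : ℝ) ^ 3 := by ring
      linarith
    calc 1 * (4 * (p : ℝ) ^ 4) = (2 * (p : ℝ) ^ 3) * (2 * (p : ℝ)) := by ring
      _ ≤ _ := mul_le_mul_of_nonneg_right h3 (by positivity)
  have hR0 : 0 < R := lt_of_lt_of_le (by positivity) hR1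
  have hq0 : ∀ i, 0 ≤ (1 / e i) / R := fun i => by
    have := he0 i
    positivity
  have hqe : ∀ i, (1 / e i) / R * e i ≤ 2 * p := by
    intro i
    have h1 : (1 / e i) / R * e i = 1 / R := by
      have := (he0 i).ne'
      have := hR0.ne'
      field_simp
    rw [h1, div_le_iff₀ hR0]
    rw [div_le_iff₀ (by positivity)] at hR1
    linarith
  refine ⟨fun i => (1 / e i) / R, e, heD, he0, he3, hq0, ?_, hqe, ?_⟩
  · rw [← Finset.sum_div, ← hR, div_self hR0.ne']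
  · intro i
    have h1 := hqe i
    have h0 := hq0 i
    show (1 / e i) / R ≤ 1 / 2
    generalize (1 / e i) / R = Q at h1 h0 ⊢
    have h2 : Q * (p : ℝ) ^ 2 ≤ Q * e i := mul_le_mul_of_nonneg_left (hep i) h0
    have h3 : Q * (p : ℝ) ≤ 2 := by
      have h4 : (Q * (p : ℝ)) * p ≤ 2 * p := by
        calc (Q * (p : ℝ)) * p = Q * (p : ℝ) ^ 2 := by ring
          _ ≤ 2 * p := h2.trans h1
      exact le_of_mul_le_mul_right h4 (by linarith)
    nlinarith

/-- Markov -/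
theorem markov {m : ℕ} (f : Fin m → ℕ) (e : ℝ) (he : 0 < e)
    (h : ∑ v, (f v : ℝ) ≤ e * m) :
    (m : ℝ) / 2 ≤ (univ.filter (fun v => (f v : ℝ) ≤ 2 * e)).card := by
  classical
  have h1 : (univ.filter (fun v => (f v : ℝ) ≤ 2 * e)).card +
      (univ.filter (fun v => ¬ (f v : ℝ) ≤ 2 * e)).card = m := by
    have := Finset.card_filter_add_card_filter_not (s := (univ : Finset (Fin m)))
      (fun v => (f v : ℝ) ≤ 2 * e)
    rw [Finset.card_univ, Fintype.card_fin] at this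
    exact this
  have h2 : ((univ.filter (fun v => ¬ (f v : ℝ) ≤ 2 * e)).card : ℝ) * (2 * e) ≤
      ∑ v, (f v : ℝ) := by
    calc ((univ.filter (fun v => ¬ (f v : ℝ) ≤ 2 * e)).card : ℝ) * (2 * e) =
        ∑ v ∈ univ.filter (fun v => ¬ (f v : ℝ) ≤ 2 * e), (2 * e) := by
          rw [Finset.sum_const, nsmul_eq_mul]
      _ ≤ ∑ v ∈ univ.filter (fun v => ¬ (f v : ℝ) ≤ 2 * e), (f v : ℝ) := by
          apply Finset.sum_le_sum
          intro v hv
          have := (Finset.mem_filter.mp hv).2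
          linarith
      _ ≤ _ := Finset.sum_le_sum_of_subset_of_nonneg (Finset.subset_univ _)
          (fun v _ _ => Nat.cast_nonneg _)
  have h5 : ((univ.filter (fun v => ¬ (f v : ℝ) ≤ 2 * e)).card : ℝ) * 2 ≤ m := by
    have h6 : (((univ.filter (fun v => ¬ (f v : ℝ) ≤ 2 * e)).card : ℝ) * 2) * e ≤ m * e := by
      linarith
    exact le_of_mul_le_mul_right h6 he
  have h7 : ((univ.filter (fun v => (f v : ℝ) ≤ 2 * e)).card : ℝ) +
      (univ.filter (fun v => ¬ (f v : ℝ) ≤ 2 * e)).card = m := by exact_mod_cast h1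
  linarith

/-- columns sharing a view with `u` -/
theorem shared {p m k : ℕ} {ι : Type} [Fintype ι] [DecidableEq ι]
    (V : ι → Finset (Fin p × Fin m)) (hk : ∀ t, (V t).card ≤ k) (i : Fin p) (u : Fin m) :
    ∃ N : Finset (Fin m), N.card ≤ (univ.filter (fun t => (i, u) ∈ V t)).card * k ∧
      ∀ v, v ∉ N → Disjoint (univ.filter (fun t => (i, u) ∈ V t))
        (univ.filter (fun t => (i, v) ∈ V t)) := by
  refine ⟨(univ.filter (fun t => (i, u) ∈ V t)).biUnion
    (fun t => univ.filter (fun v => (i, v) ∈ V t)), ?_, ?_⟩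
  · apply Finset.card_biUnion_le_card_mul
    intro t _
    refine le_trans ?_ (hk t)
    apply Finset.card_le_card_of_injOn (fun v => (i, v))
    · intro v hv
      exact (Finset.mem_filter.mp hv).2
    · intro v _ v' _ h
      exact (Prod.mk.inj h).2
  · intro v hvN
    rw [Finset.disjoint_left]
    intro t ht1 ht2
    apply hvN
    rw [Finset.mem_biUnion]
    refine ⟨t, ht1, ?_⟩
    rw [Finset.mem_filter]
    exact ⟨Finset.mem_univ _, (Finset.mem_filter.mp ht2).2⟩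

/-- union bound after Chebyshev -/
theorem exists_good {p : ℕ} (hp : 0 < p) {Ω : Type} [Fintype Ω] (w : Ω → ℝ)
    (hw0 : ∀ c, 0 ≤ w c) (hw1 : ∑ c, w c = 1) (X : Fin p → Ω → ℝ) (μ K : Fin p → ℝ)
    (hμ0 : ∀ i, 0 < μ i)
    (hvar : ∀ i, ∑ c, w c * (X i c - μ i) ^ 2 ≤ K i * μ i)
    (hK : ∀ i, 4 * K i * p < μ i) : ∃ c, ∀ i, μ i / 2 ≤ X i c := by
  by_contra hcon
  push Not at hcon
  have hp0 : (0 : ℝ) < p := by exact_mod_cast hp
  have h1 : (1 : ℝ) ≤ ∑ c, w c * ∑ i, (X i c - μ i) ^ 2 * (4 / μ i ^ 2) := by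
    rw [← hw1]
    apply Finset.sum_le_sum
    intro c _
    obtain ⟨i, hi⟩ := hcon c
    have h2 : (1 : ℝ) ≤ (X i c - μ i) ^ 2 * (4 / μ i ^ 2) := by
      have h3 : μ i / 2 ≤ μ i - X i c := by linarith
      have h4 : (μ i / 2) ^ 2 ≤ (μ i - X i c) ^ 2 :=
        pow_le_pow_left₀ (by linarith [hμ0 i]) h3 2
      have h5 := hμ0 i
      rw [← mul_div_assoc, le_div_iff₀ (by positivity)]
      nlinarith
    have h3 : (X i c - μ i) ^ 2 * (4 / μ i ^ 2) ≤
        ∑ i, (X i c - μ i) ^ 2 * (4 / μ i ^ 2) :=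
      Finset.single_le_sum (f := fun i => (X i c - μ i) ^ 2 *
        (4 / μ i ^ 2)) (fun j _ => by positivity) (Finset.mem_univ i)
    calc w c = w c * 1 := by ring
      _ ≤ _ := mul_le_mul_of_nonneg_left (h2.trans h3) (hw0 c)
  have h2 : ∑ c, w c * ∑ i, (X i c - μ i) ^ 2 * (4 / μ i ^ 2) =
      ∑ i, (4 / μ i ^ 2) * ∑ c, w c * (X i c - μ i) ^ 2 := by
    simp_rw [Finset.mul_sum]
    rw [Finset.sum_comm]
    refine Finset.sum_congr rfl (fun i _ => Finset.sum_congr rfl (fun c _ => ?_))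
    ring
  rw [h2] at h1
  have h3 : ∀ i ∈ (univ : Finset (Fin p)), (4 / μ i ^ 2) * ∑ c, w c *
        (X i c - μ i) ^ 2 < 1 / p := by
    intro i _
    have h5 := hμ0 i
    calc (4 / μ i ^ 2) * ∑ c, w c *
        (X i c - μ i) ^ 2 ≤ (4 / μ i ^ 2) * (K i * μ i) :=
          mul_le_mul_of_nonneg_left (hvar i) (by positivity)
      _ = (4 * K i) / μ i := by field_simp
      _ < 1 / p := by
          rw [div_lt_div_iff₀ h5 hp0]
          linarith [hK i]
  have h4 : ∑ i : Fin p, (4 / μ i ^ 2) * ∑ c, w c *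
        (X i c - μ i) ^ 2 < ∑ i : Fin p, (1 / (p : ℝ)) :=
    Finset.sum_lt_sum_of_nonempty ⟨⟨0, hp⟩, Finset.mem_univ _⟩ h3
  rw [Finset.sum_const, Finset.card_univ, Fintype.card_fin, nsmul_eq_mul,
    mul_one_div_cancel hp0.ne'] at h4
  linarith

/-- the classes of the views -/
theorem exists_classes {p m k : ℕ} (hp : 4 ≤ p) (hk1 : 1 ≤ k) {ι : Type} [Fintype ι]
    (V : ι → Finset (Fin p × Fin m)) (hk : ∀ t, (V t).card ≤ k)
    (hW : ∑ t, (V t).card ≤ p ^ 3 * m) (hkm : k * 2 ^ (20 * p) ≤ m) :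
    ∃ (c : ι → Fin p) (A : Fin p → Finset (Fin m)), (∀ i, m ≤ 2 ^ (9 * p) * (A i).card) ∧
      ∀ t, ∀ v ∈ A (c t), (c t, v) ∉ V t := by
  classical
  obtain ⟨S, hS⟩ : ∃ S : Fin p → Fin m → Finset ι,
    S = fun i v => univ.filter (fun t => (i, v) ∈ V t) := ⟨_, rfl⟩
  have hp0 : (4 : ℝ) ≤ p := by exact_mod_cast hp
  have hk0 : (1 : ℝ) ≤ k := by exact_mod_cast hk1
  have hkmR : (k : ℝ) * 2 ^ (20 * p) ≤ m := by exact_mod_cast hkm
  have hm0 : (0 : ℝ) < m := lt_of_lt_of_le (by positivity) hkmR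
  obtain ⟨q, e, heD, he0, he3, hq0, hq1, hqe, hq2⟩ := weights hp
    (fun i => (∑ v, ((S i v).card : ℝ)) / m) (fun i => by positivity) (by
      rw [← Finset.sum_div, div_le_iff₀ hm0]
      have := deg_sum V
      rw [← this] at hW
      rw [hS]
      exact_mod_cast hW)
  obtain ⟨L, hL⟩ : ∃ L : Fin p → Finset (Fin m),
    L = fun i => univ.filter (fun v => ((S i v).card : ℝ) ≤ 2 * e i) := ⟨_, rfl⟩
  have hLe : ∀ i, ∀ v ∈ L i, ((S i v).card : ℝ) ≤ 2 * e i := by
    intro i v hv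
    rw [hL] at hv
    exact (Finset.mem_filter.mp hv).2
  have hLc : ∀ i, (m : ℝ) / 2 ≤ (L i).card := by
    intro i
    rw [hL]
    apply markov (fun v => (S i v).card) (e i) (he0 i)
    have := heD i
    rwa [div_le_iff₀ hm0] at this
  obtain ⟨μ, hμ⟩ : ∃ μ : Fin p → ℝ, μ = fun i => ∑ v ∈ L i, (1 - q i) ^ (S i v).card :=
    ⟨_, rfl⟩
  have hμ1 : ∀ i, (m : ℝ) / 2 * (1 / 2) ^ (8 * p) ≤ μ i := by
    intro i
    calc (m : ℝ) / 2 * (1 / 2) ^ (8 * p) ≤ (L i).card * (1 / 2) ^ (8 * p) := by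
          apply mul_le_mul_of_nonneg_right (hLc i) (by positivity)
      _ = ∑ v ∈ L i, (1 / 2 : ℝ) ^ (8 * p) := by rw [Finset.sum_const, nsmul_eq_mul]
      _ ≤ μ i := by
          rw [hμ]
          apply Finset.sum_le_sum
          intro v hv
          have h1 := hLe i v hv
          apply pow_lower (hq0 i) (hq2 i)
          push_cast
          have h2 : q i * ((S i v).card : ℝ) ≤ q i * (2 * e i) :=
            mul_le_mul_of_nonneg_left h1 (hq0 i)
          have h3 := hqe i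
          linarith
  have hvar : ∀ i, ∑ c : ι → Fin p, wt q c * (∑ u ∈ L i, ind i (S i u) c - μ i) ^ 2 ≤
      (2 * e i * k) * μ i := by
    intro i
    rw [hμ]
    apply var_le q hq0 hq1 (fun j => (hq2 j).trans (by norm_num)) i (L i) (S i)
    intro u hu
    obtain ⟨N, hN1, hN2⟩ := shared V hk i u
    refine ⟨N, ?_, ?_⟩
    · have h2 := hLe i u hu
      have h3 : ((N.card : ℕ) : ℝ) ≤ ((S i u).card : ℝ) * k := by
        rw [hS]
        exact_mod_cast hN1
      exact h3.trans (mul_le_mul_of_nonneg_right h2 (by linarith))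
    · intro v _ hvN
      rw [hS]
      exact hN2 v hvN
  have h2p : (2 : ℝ) ^ (20 * p) * (1 / 2) ^ (8 * p) = 2 ^ (12 * p) := by
    rw [one_div, inv_pow, show 20 * p = 12 * p + 8 * p by ring, pow_add, mul_assoc,
      mul_inv_cancel₀ (by positivity), mul_one]
  have hμ2 : ∀ i, (k : ℝ) * 2 ^ (12 * p) / 2 ≤ μ i := by
    intro i
    refine le_trans ?_ (hμ1 i)
    calc (k : ℝ) * 2 ^ (12 * p) / 2 = (k * 2 ^ (20 * p)) / 2 * (1 / 2) ^ (8 * p) := by
          rw [← h2p]; ring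
      _ ≤ _ := mul_le_mul_of_nonneg_right (by linarith) (by positivity)
  have hμ0 : ∀ i, 0 < μ i := fun i => lt_of_lt_of_le (by positivity) (hμ2 i)
  obtain ⟨c, hc⟩ := exists_good (by omega : 0 < p) (wt (ι := ι) q) (wt_nonneg q hq0)
    (sum_wt q hq1 ⟨0, by omega⟩) (fun i c => ∑ u ∈ L i, ind i (S i u) c) μ
    (fun i => 2 * e i * k) hμ0 hvar (by
      intro i
      have h6 := hμ2 i
      have h7 := four_lt hp
      have h8 : 8 * e i * k * p ≤ 8 * (p : ℝ) ^ 3 * k * p := by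
        have := he3 i
        gcongr
      have h9 : 8 * (p : ℝ) ^ 3 * k * p = (16 * (p : ℝ) ^ 4) * k / 2 := by ring
      have h10 : (16 * (p : ℝ) ^ 4) * k < 2 ^ (12 * p) * k :=
        mul_lt_mul_of_pos_right h7 (by linarith)
      have h11 : 4 * (2 * e i * k) * (p : ℝ) = 8 * e i * k * p := by ring
      rw [h11]
      linarith)
  refine ⟨c, fun i => (L i).filter (fun v => ∀ t ∈ S i v, c t ≠ i), ?_, ?_⟩
  · intro i
    have h1 : ∑ u ∈ L i, ind i (S i u) c =
        (((L i).filter (fun v => ∀ t ∈ S i v, c t ≠ i)).card : ℝ) := by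
      rw [Finset.card_filter]
      push_cast
      refine Finset.sum_congr rfl (fun v _ => ?_)
      unfold ind
      congr
    have h2 := hc i
    simp only [h1] at h2
    have h3 := hμ1 i
    generalize ((L i).filter (fun v => ∀ t ∈ S i v, c t ≠ i)).card = a at h2 ⊢
    have h4 : (m : ℝ) ≤ 4 * 2 ^ (8 * p) * (a : ℝ) := by
      have h5 : (m : ℝ) / 2 * (1 / 2) ^ (8 * p) ≤ 2 * (a : ℝ) := by linarith
      have h6 : (m : ℝ) = (m / 2 * (1 / 2) ^ (8 * p)) * (2 * 2 ^ (8 * p)) := by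
        rw [one_div, inv_pow]
        field_simp
      rw [h6]
      calc (m / 2 * (1 / 2) ^ (8 * p)) * (2 * 2 ^ (8 * p)) ≤
          (2 * (a : ℝ)) * (2 * 2 ^ (8 * p)) := mul_le_mul_of_nonneg_right h5 (by positivity)
        _ = _ := by ring
    have h7 : (4 : ℝ) * 2 ^ (8 * p) ≤ 2 ^ (9 * p) := by
      calc (4 : ℝ) * 2 ^ (8 * p) = 2 ^ 2 * 2 ^ (8 * p) := by norm_num
        _ = 2 ^ (2 + 8 * p) := by rw [pow_add]
        _ ≤ 2 ^ (9 * p) := pow_le_pow_right₀ (by norm_num) (by omega)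
    have h8 : (m : ℝ) ≤ 2 ^ (9 * p) * (a : ℝ) :=
      h4.trans (mul_le_mul_of_nonneg_right h7 (Nat.cast_nonneg _))
    exact_mod_cast h8
  · intro t v hv hmem
    have h1 := (Finset.mem_filter.mp hv).2 t (by
      rw [hS]
      exact Finset.mem_filter.mpr ⟨Finset.mem_univ _, hmem⟩)
    exact h1 rfl

end Vale.Agent.P336.R2.H524
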