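import Mathlib

/-!
# P336: a random half of the variables
-/

set_option autoImplicit false

namespace Vale.Agent.P336.R2.H524

open Finset

/-- the exponential moment of the part of `D` outside a random set -/
theorem sum_pow_sdiff {V : Type*} [Fintype V] [DecidableEq V] (D : Finset V) (c : ℝ) :
    ∑ U : Finset V, c ^ (D \ U).card = (1 + c) ^ D.card * 2 ^ (Fintype.card V - D.card) := by
  have h1 : ∀ U : Finset V, c ^ (D \ U).card =
      (∏ v ∈ U, (1 : ℝ)) * ∏ v ∈ univ \ U, (if v ∈ D then c else 1) := by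
    intro U
    rw [prod_const_one, one_mul, prod_ite, prod_const_one, mul_one, prod_const]
    congr 2
    ext v
    simp [and_comm]
  have h2 := Finset.prod_add (fun _ : V => (1 : ℝ)) (fun v => if v ∈ D then c else 1) univ
  rw [powerset_univ] at h2
  calc ∑ U : Finset V, c ^ (D \ U).card
      = ∑ U : Finset V, (∏ v ∈ U, (1 : ℝ)) * ∏ v ∈ univ \ U, (if v ∈ D then c else 1) :=
        sum_congr rfl fun U _ => h1 U
    _ = ∏ v : V, ((1 : ℝ) + if v ∈ D then c else 1) := h2.symm
    _ = (1 + c) ^ D.card * 2 ^ (Fintype.card V - D.card) := by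
        have h3 : ∀ v : V, ((1 : ℝ) + if v ∈ D then c else 1) = if v ∈ D then 1 + c else 2 := by
          intro v
          split_ifs
          · rfl
          · norm_num
        rw [prod_congr rfl (fun v _ => h3 v), prod_ite, prod_const, prod_const]
        congr 2
        · congr 1
          ext v
          simp
        · have h4 : (univ.filter fun v => v ∉ D) = univ \ D := by
            ext v
            simp
          rw [h4, card_univ_sdiff]

/-- few sets `U` leave a small part of `D` outside -/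
theorem few_small {V : Type*} [Fintype V] [DecidableEq V] (D : Finset V) {n : ℕ}
    (hD : n ≤ D.card) :
    ((univ.filter fun U : Finset V => (D \ U).card < n / 4).card : ℝ) * 2 ^ (n / 16) ≤
      2 ^ Fintype.card V := by
  have hc : D.card ≤ Fintype.card V := card_le_univ D
  have h1 := sum_pow_sdiff D (1 / 3 : ℝ)
  have h2 : ((univ.filter fun U : Finset V => (D \ U).card < n / 4).card : ℝ) *
      (1 / 3 : ℝ) ^ (n / 4) ≤ ∑ U : Finset V, (1 / 3 : ℝ) ^ (D \ U).card := by
    calc ((univ.filter fun U : Finset V => (D \ U).card < n / 4).card : ℝ) *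
        (1 / 3 : ℝ) ^ (n / 4)
        = ∑ U ∈ univ.filter fun U : Finset V => (D \ U).card < n / 4,
            (1 / 3 : ℝ) ^ (n / 4) := by rw [sum_const, nsmul_eq_mul]
      _ ≤ ∑ U ∈ univ.filter fun U : Finset V => (D \ U).card < n / 4,
            (1 / 3 : ℝ) ^ (D \ U).card := by
          refine sum_le_sum fun U hU => ?_
          exact pow_le_pow_of_le_one (by norm_num) (by norm_num) (mem_filter.1 hU).2.le
      _ ≤ ∑ U : Finset V, (1 / 3 : ℝ) ^ (D \ U).card :=
          sum_le_sum_of_subset_of_nonneg (filter_subset _ _) fun _ _ _ => by positivity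
  rw [h1] at h2
  obtain ⟨B, hB⟩ : ∃ B : ℝ, B = ((univ.filter fun U : Finset V =>
    (D \ U).card < n / 4).card : ℝ) := ⟨_, rfl⟩
  rw [← hB] at h2 ⊢
  obtain ⟨k, hk⟩ : ∃ k : ℕ, k = n / 16 := ⟨_, rfl⟩
  obtain ⟨m, hm⟩ : ∃ m : ℕ, m = n / 4 := ⟨_, rfl⟩
  rw [← hk]
  rw [← hm] at h2
  have hB0 : 0 ≤ B := by rw [hB]; positivity
  have e1 : (2 : ℝ) ^ Fintype.card V = 2 ^ D.card * 2 ^ (Fintype.card V - D.card) := by
    rw [← pow_add]; congr 1; omega
  have e2 : ((1 : ℝ) + 1 / 3) ^ D.card = (2 / 3 : ℝ) ^ D.card * 2 ^ D.card := by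
    rw [← mul_pow]; norm_num
  have e3 : (2 / 3 : ℝ) ^ D.card ≤ (2 / 3 : ℝ) ^ (4 * m) :=
    pow_le_pow_of_le_one (by norm_num) (by norm_num) (by omega)
  have e4 : (2 / 3 : ℝ) ^ (4 * m) = (16 / 27 : ℝ) ^ m * (1 / 3) ^ m := by
    rw [pow_mul, ← mul_pow]; norm_num
  have e5 : (16 / 27 : ℝ) ^ m ≤ (16 / 27 : ℝ) ^ (4 * k) :=
    pow_le_pow_of_le_one (by norm_num) (by norm_num) (by omega)
  have e6 : (16 / 27 : ℝ) ^ (4 * k) ≤ (1 / 2) ^ k := by
    rw [pow_mul]
    exact pow_le_pow_left₀ (by norm_num) (by norm_num) k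
  have e7 : B * (1 / 3 : ℝ) ^ m ≤ ((1 / 2 : ℝ) ^ k * 2 ^ Fintype.card V) * (1 / 3) ^ m := by
    refine h2.trans ?_
    rw [e1, e2]
    calc (2 / 3 : ℝ) ^ D.card * 2 ^ D.card * 2 ^ (Fintype.card V - D.card)
        = (2 / 3 : ℝ) ^ D.card * (2 ^ D.card * 2 ^ (Fintype.card V - D.card)) := by ring
      _ ≤ ((1 / 2 : ℝ) ^ k * (1 / 3) ^ m) * (2 ^ D.card * 2 ^ (Fintype.card V - D.card)) := by
          refine mul_le_mul_of_nonneg_right ?_ (by positivity)
          refine e3.trans ?_
          rw [e4]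
          exact mul_le_mul_of_nonneg_right (e5.trans e6) (by positivity)
      _ = _ := by ring
  have e8 : B ≤ (1 / 2 : ℝ) ^ k * 2 ^ Fintype.card V :=
    le_of_mul_le_mul_right e7 (by positivity)
  calc B * 2 ^ k ≤ ((1 / 2 : ℝ) ^ k * 2 ^ Fintype.card V) * 2 ^ k :=
        mul_le_mul_of_nonneg_right e8 (by positivity)
    _ = ((1 / 2 : ℝ) * 2) ^ k * 2 ^ Fintype.card V := by rw [mul_pow]; ring
    _ = 2 ^ Fintype.card V := by norm_num

/-- few sets `U` contain a small part of `D` -/
theorem few_small' {V : Type*} [Fintype V] [DecidableEq V] (D : Finset V) {n : ℕ}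
    (hD : n ≤ D.card) :
    ((univ.filter fun U : Finset V => (D ∩ U).card < n / 4).card : ℝ) * 2 ^ (n / 16) ≤
      2 ^ Fintype.card V := by
  have h1 : (univ.filter fun U : Finset V => (D ∩ U).card < n / 4).card =
      (univ.filter fun U : Finset V => (D \ U).card < n / 4).card := by
    refine card_bij' (fun U _ => Uᶜ) (fun U _ => Uᶜ) ?_ ?_ ?_ ?_
    · intro U hU
      refine mem_filter.2 ⟨mem_univ _, ?_⟩
      have h2 : D \ Uᶜ = D ∩ U := by
        ext v; simp
      rw [h2]
      exact (mem_filter.1 hU).2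
    · intro U hU
      refine mem_filter.2 ⟨mem_univ _, ?_⟩
      have h2 : D ∩ Uᶜ = D \ U := by
        ext v; simp
      rw [h2]
      exact (mem_filter.1 hU).2
    · intro U _
      exact compl_compl U
    · intro U _
      exact compl_compl U
  rw [h1]
  exact few_small D hD

theorem half_set {N : ℕ} {I J : Type} [Fintype I] [Fintype J] (a b : ℕ)
    (W : I → Finset (Fin N)) (A : J → Finset (Fin N)) (hW : ∀ i, a ≤ (W i).card)
    (hA : ∀ j, b ≤ (A j).card) (hI : Fintype.card I * 4 ≤ 2 ^ (a / 16))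
    (hJ : Fintype.card J * 4 ≤ 2 ^ (b / 16)) :
    ∃ U : Finset (Fin N), (∀ i, a / 4 ≤ (W i \ U).card) ∧ ∀ j, b / 4 ≤ (A j ∩ U).card := by
  classical
  by_contra hcon
  push Not at hcon
  have hcov : (univ : Finset (Finset (Fin N))) ⊆
      (univ.biUnion fun i : I => univ.filter fun U : Finset (Fin N) => (W i \ U).card < a / 4) ∪
      (univ.biUnion fun j : J => univ.filter fun U : Finset (Fin N) => (A j ∩ U).card < b / 4) := by
    intro U _
    by_cases h : ∀ i, a / 4 ≤ (W i \ U).card
    · obtain ⟨j, hj⟩ := hcon U h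
      exact mem_union_right _ (mem_biUnion.2 ⟨j, mem_univ _, mem_filter.2 ⟨mem_univ _, hj⟩⟩)
    · push Not at h
      obtain ⟨i, hi⟩ := h
      exact mem_union_left _ (mem_biUnion.2 ⟨i, mem_univ _, mem_filter.2 ⟨mem_univ _, hi⟩⟩)
  have h1 := card_le_card hcov
  rw [card_univ, Fintype.card_finset, Fintype.card_fin] at h1
  have h2 := h1.trans (card_union_le _ _)
  have b1 : ((univ.biUnion fun i : I => univ.filter fun U : Finset (Fin N) =>
      (W i \ U).card < a / 4).card : ℝ) ≤ 2 ^ N / 4 := by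
    have g1 : ((univ.biUnion fun i : I => univ.filter fun U : Finset (Fin N) =>
        (W i \ U).card < a / 4).card : ℝ) ≤ ∑ i : I, ((univ.filter fun U : Finset (Fin N) =>
        (W i \ U).card < a / 4).card : ℝ) := by
      exact_mod_cast card_biUnion_le
    have g2 : ∀ i : I, ((univ.filter fun U : Finset (Fin N) =>
        (W i \ U).card < a / 4).card : ℝ) ≤ 2 ^ N / 2 ^ (a / 16) := by
      intro i
      have := few_small (W i) (hW i)
      rw [Fintype.card_fin] at this
      rw [le_div_iff₀ (by positivity)]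
      exact this
    have g3 := g1.trans (sum_le_sum fun i _ => g2 i)
    rw [sum_const, nsmul_eq_mul, card_univ] at g3
    refine g3.trans ?_
    have g4 : (Fintype.card I : ℝ) * 4 ≤ 2 ^ (a / 16) := by exact_mod_cast hI
    rw [mul_div_assoc', div_le_div_iff₀ (by positivity) (by norm_num)]
    have g5 : (0 : ℝ) < 2 ^ N := by positivity
    nlinarith
  have b2 : ((univ.biUnion fun j : J => univ.filter fun U : Finset (Fin N) =>
      (A j ∩ U).card < b / 4).card : ℝ) ≤ 2 ^ N / 4 := by
    have g1 : ((univ.biUnion fun j : J => univ.filter fun U : Finset (Fin N) =>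
        (A j ∩ U).card < b / 4).card : ℝ) ≤ ∑ j : J, ((univ.filter fun U : Finset (Fin N) =>
        (A j ∩ U).card < b / 4).card : ℝ) := by
      exact_mod_cast card_biUnion_le
    have g2 : ∀ j : J, ((univ.filter fun U : Finset (Fin N) =>
        (A j ∩ U).card < b / 4).card : ℝ) ≤ 2 ^ N / 2 ^ (b / 16) := by
      intro j
      have := few_small' (A j) (hA j)
      rw [Fintype.card_fin] at this
      rw [le_div_iff₀ (by positivity)]
      exact this
    have g3 := g1.trans (sum_le_sum fun i _ => g2 i)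
    rw [sum_const, nsmul_eq_mul, card_univ] at g3
    refine g3.trans ?_
    have g4 : (Fintype.card J : ℝ) * 4 ≤ 2 ^ (b / 16) := by exact_mod_cast hJ
    rw [mul_div_assoc', div_le_div_iff₀ (by positivity) (by norm_num)]
    have g5 : (0 : ℝ) < 2 ^ N := by positivity
    nlinarith
  have h3 : (2 : ℝ) ^ N ≤ ((univ.biUnion fun i : I => univ.filter fun U : Finset (Fin N) =>
      (W i \ U).card < a / 4).card : ℝ) + ((univ.biUnion fun j : J => univ.filter
      fun U : Finset (Fin N) => (A j ∩ U).card < b / 4).card : ℝ) := by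
    exact_mod_cast h2
  have h4 : (0 : ℝ) < 2 ^ N := by positivity
  linarith

end Vale.Agent.P336.R2.H524
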