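import Vale.Agent.P336.R2.H836.Spec2
import Vale.Agent.P336.R2.H444.LangP
import Vale.Agent.P336.R2.H444.LangForm

/-!
# P336: the second explicit language: its value is the form, and it is in P
-/

namespace Vale.Agent.P336.R2.H524

open Polynomial Finset Vale.Agent.Lib.PolyTime
open Vale.Agent.P336.R2.H444

/-- The value of a word with `p` ones among its first `Nat.size N` letters is the form. -/
theorem value2_eq {p m N : ℕ} (hm : m = N / 4 / p) (u : Fin N → Bool)
    (hq : ((List.ofFn u).take (Nat.size N)).count true = p)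
    (h1 : ∀ d : Fin (N / 4), N / 4 + d < N)
    (h2 : ∀ v : Fin p × Fin m, 2 * (N / 4) + v.1 * m + v.2 < N) :
    ((H836.value2 (List.ofFn u) : ℕ) : ZMod 2) =
      H836.form (fun d : Fin (N / 4) => u ⟨N / 4 + d, h1 d⟩)
        (fun v : Fin p × Fin m => u ⟨2 * (N / 4) + v.1 * m + v.2, h2 v⟩) := by
  unfold H836.value2 H836.form H836.coeffs
  rw [List.length_ofFn, hq, ← hm, Nat.cast_sum, Finset.sum_range]
  refine Finset.sum_congr rfl fun d _ => ?_
  rw [Nat.cast_mul, bit_ofFn u _ (h1 d), cast_toNat_mul, bit_foldl _ _ _ _ _ _ d.2]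
  have h3 : (∏ i ∈ range p, wordPoly (List.ofFn u) (2 * (N / 4)) m i) =
      ∏ i : Fin p, H836.blockPoly
        (fun v : Fin p × Fin m => u ⟨2 * (N / 4) + v.1 * m + v.2, h2 v⟩) i := by
    rw [Finset.prod_range]
    refine Finset.prod_congr rfl fun i _ => ?_
    unfold wordPoly H836.blockPoly
    rw [Finset.sum_range]
    refine Finset.sum_congr rfl fun j _ => ?_
    rw [bit_ofFn u _ (h2 (i, j))]
    exact C_toNat_mul _ _
  rw [h3]

variable {A : Set Word} {α : Type*} [Enc α]

theorem PT_value2 {w : α → List Bool} (hw : PT A w) : PT A (fun a => H836.value2 (w a)) := by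
  unfold H836.value2
  have hh : PT A (fun a => (w a).length / 4) := PT.div (PT.length hw) (PT.const 4)
  have hhb : PBd (fun a => (w a).length / 4) :=
    (PBd.length hw).mono fun a => Nat.div_le_self _ _
  have hp : PT A (fun a => ((w a).take (Nat.size (w a).length)).count true) :=
    PT_count (PT.take hw (PT.length hw).natSize)
  have hpb : PBd (fun a => ((w a).take (Nat.size (w a).length)).count true) :=
    (PBd.length hw).mono fun a => List.count_le_length.trans (List.length_take_le' _ _)
  have hm : PT A (fun a => (w a).length / 4 / ((w a).take (Nat.size (w a).length)).count true) :=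
    PT.div hh hp
  have hmb : PBd (fun a => (w a).length / 4 /
      ((w a).take (Nat.size (w a).length)).count true) :=
    hhb.mono fun a => Nat.div_le_self _ _
  have hc := PT_coeffs hw (PT.mul (PT.const 2) hh) hm hmb hh hhb hp hpb
  refine PT_sumRange hh hhb ?_
  have h1 : PT A (fun q : α × ℕ => q.1) := PT.fst'
  exact PT.mul (PT_bit (hw.comp h1) (PT.add (hh.comp h1) PT.snd')) (PT_bit (hc.comp h1) PT.snd')

/-- Membership in the language is computable in polynomial time. -/
theorem PT_lang2' {w : α → List Bool} (hw : PT A w) :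
    PT A (fun a => decide (H836.value2 (w a) % 2 = 1)) :=
  PT.odd (PT_value2 hw)

/-- The language is decided in polynomial time. -/
theorem inP_lang2 : InP H836.lang2 := by
  have h : PT ∅ (fun w : Raw => decide (H836.value2 w.w % 2 = 1)) :=
    PT_lang2' (PT.listOfRaw PT.id)
  obtain ⟨g, hg, h⟩ := h
  have h2 : ∃ M : Turing.TM2ComputableInPolyTime (id : List Bool → List Bool)
      Computability.encodeBool (fun w => decide (H836.value2 w % 2 = 1)),
      ∀ k, Finite (M.tm.Γ k) := by
    refine exists_tm2_of_polyTimeFun _ _ _ g (polyTimeFun_iff.2 hg) fun w => ?_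
    exact h (Raw.mk w)
  unfold InP
  have h3 : (fun w => @decide (w ∈ H836.lang2) (Classical.propDecidable _)) =
      fun w => decide (H836.value2 w % 2 = 1) := by
    funext w
    rw [decide_eq_decide]
    rfl
  rw [h3]
  exact h2

end Vale.Agent.P336.R2.H524
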