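import Vale.Agent.P336.R2.H836.Mean
import Vale.Agent.P336.H567.Block

/-!
# P336: expansion of narrow CNFs multiplied by an arbitrary function
-/

set_option autoImplicit false

namespace Vale.Agent.P336.R2.H524

open Finset
open Vale.Agent.P336.Expansion
open Vale.Agent.P336.R2.H836 (E mix)

/-- the numerical condition -/
theorem sum_two_le {V : Type} [DecidableEq V] {r : ℕ} {q : ℝ} (hq : 0 < q)
    (hrq : (r : ℝ) * q ≤ 1 / 2) (S : Finset V) (hS : S.card ≤ r) :
    ∑ D ∈ S.powerset.filter (fun D => 1 < D.card), q ^ D.card ≤ 1 / 2 := by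
  have h1 : ∑ D ∈ S.powerset, q ^ D.card = (1 + q) ^ S.card := by
    have := Finset.sum_pow_mul_eq_add_pow q 1 S
    simp only [one_pow, mul_one] at this
    rw [this, add_comm]
  have h2 := Finset.sum_filter_add_sum_filter_not S.powerset (fun D => 1 < D.card)
    (fun D => q ^ D.card)
  have h3 : 1 + (S.card : ℝ) * q ≤
      ∑ D ∈ S.powerset.filter (fun D => ¬ 1 < D.card), q ^ D.card := by
    have h4 : insert ∅ (S.image (fun v => ({v} : Finset V))) ⊆
        S.powerset.filter (fun D => ¬ 1 < D.card) := by
      intro D hD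
      rw [Finset.mem_insert, Finset.mem_image] at hD
      rw [Finset.mem_filter, Finset.mem_powerset]
      rcases hD with rfl | ⟨v, hv, rfl⟩
      · simp
      · simp [hv]
    have h5 := Finset.sum_le_sum_of_subset_of_nonneg h4
      (f := fun D : Finset V => q ^ D.card) (fun D _ _ => by positivity)
    rw [Finset.sum_insert (by simp), Finset.sum_image (by
      intro a _ b _ hab
      exact Finset.singleton_injective hab)] at h5
    simp only [Finset.card_empty, pow_zero, Finset.card_singleton, pow_one, Finset.sum_const,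
      nsmul_eq_mul] at h5
    exact h5
  have hx0 : 0 ≤ (S.card : ℝ) * q := by positivity
  have hx1 : (S.card : ℝ) * q ≤ 1 / 2 := by
    have : (S.card : ℝ) ≤ r := by exact_mod_cast hS
    exact (mul_le_mul_of_nonneg_right this hq.le).trans hrq
  have h6 : (1 + q) ^ S.card ≤ Real.exp ((S.card : ℝ) * q) := by
    rw [Real.exp_nat_mul]
    apply pow_le_pow_left₀ (by positivity)
    have := Real.add_one_le_exp q
    linarith
  have h7 := Real.abs_exp_sub_one_sub_id_le (x := (S.card : ℝ) * q)
    (by rw [abs_of_nonneg hx0]; linarith)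
  have h8 := (abs_le.mp h7).2
  have h9 : ((S.card : ℝ) * q) ^ 2 ≤ 1 / 4 := by nlinarith
  linarith

section

variable {V : Type} [Fintype V] [DecidableEq V]

theorem card_cube' (A : Finset V) (x : V → Bool) : (cube A x).card = 2 ^ A.card := by
  have h1 : cube A x = Fintype.piFinset fun v => if v ∈ A then (univ : Finset Bool) else {x v} := by
    ext z
    rw [mem_cube, Fintype.mem_piFinset]
    constructor
    · intro h v
      split_ifs with hv
      · exact mem_univ _
      · rw [mem_singleton]; exact h v hv
    · intro h v hv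
      have := h v
      rw [if_neg hv, mem_singleton] at this
      exact this
  rw [h1, Fintype.card_piFinset]
  have h2 : ∀ v : V, (if v ∈ A then (univ : Finset Bool) else {x v}).card =
      if v ∈ A then 2 else 1 := by
    intro v
    split_ifs
    · simp
    · simp
  rw [prod_congr rfl fun v _ => h2 v, prod_ite, prod_const_one, mul_one, prod_const]
  congr 2
  ext v
  simp

theorem card_fun : (Fintype.card (V → Bool) : ℝ) = 2 ^ Fintype.card V := by
  rw [Fintype.card_fun, Fintype.card_bool]
  push_cast
  rfl

/-- the mean over a subcube -/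
theorem E_cube (B : Finset V) (y : V → Bool) (h : (V → Bool) → ℝ) :
    (2 : ℝ) ^ B.card * E (fun z => h (mix B y z)) = ∑ z ∈ cube B y, h z := by
  have h1 : ∑ z : V → Bool, h (mix B y z) = 2 ^ (Bᶜ).card * ∑ w ∈ cube B y, h w := by
    have h2 := Finset.sum_fiberwise_of_maps_to (s := (univ : Finset (V → Bool)))
      (t := cube B y) (g := fun z => mix B y z) (fun z _ => by
        rw [mem_cube]
        intro v hv
        unfold mix
        rw [if_neg hv]) (fun z => h (mix B y z))
    rw [← h2, Finset.mul_sum]
    refine Finset.sum_congr rfl (fun w hw => ?_)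
    have h3 : (univ.filter (fun z : V → Bool => mix B y z = w)) = cube Bᶜ w := by
      ext z
      rw [mem_cube, Finset.mem_filter]
      constructor
      · rintro ⟨-, hz⟩ v hv
        have hv' : v ∈ B := by simpa using hv
        rw [← hz]
        unfold mix
        rw [if_pos hv']
      · intro hz
        refine ⟨mem_univ _, ?_⟩
        funext v
        unfold mix
        by_cases hv : v ∈ B
        · rw [if_pos hv]
          exact hz v (by simpa using hv)
        · rw [if_neg hv]
          exact (mem_cube.mp hw v hv).symm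
    rw [Finset.sum_congr rfl (g := fun _ => h w) (fun z hz => by
      rw [(Finset.mem_filter.mp hz).2]), Finset.sum_const, h3, card_cube', nsmul_eq_mul]
    push_cast
    rfl
  unfold E
  rw [h1, card_fun]
  have h4 : B.card + (Bᶜ).card = Fintype.card V := Finset.card_add_card_compl B
  rw [← h4, pow_add]
  field_simp

/-- all clauses satisfied -/
def Sat (C : ℕ → Cl V) (I : Finset ℕ) (z : V → Bool) : Prop :=
  ∀ i ∈ I, ∃ v ∈ (C i).S, z v ≠ (C i).c v

open Classical in
theorem prod_ind (C : ℕ → Cl V) (I : Finset ℕ) (z : V → Bool) :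
    ∏ i ∈ I, ind (C i) z = if Sat C I z then 1 else 0 := by
  by_cases h : Sat C I z
  · rw [if_pos h]
    apply Finset.prod_eq_one
    intro i hi
    obtain ⟨v, hv, hne⟩ := h i hi
    unfold ind
    rw [if_neg]
    intro hall
    exact hne (hall v hv)
  · rw [if_neg h]
    unfold Sat at h
    push Not at h
    obtain ⟨i, hi, hall⟩ := h
    apply Finset.prod_eq_zero hi
    unfold ind
    rw [if_pos hall]

open Classical in
/-- a CNF with at most one alive variable in each clause is empty or a subcube -/
theorem val_structure (h : (V → Bool) → ℝ) (C : ℕ → Cl V) (A : Finset V) (x : V → Bool)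
    (I : Finset ℕ) (hn : ∀ i ∈ I, Narrow 1 (C i) A x) :
    val h C A x I = 0 ∨ ∃ F ⊆ A, ∃ y ∈ cube A x, val h C A x I = ∑ z ∈ cube (A \ F) y, h z := by
  have hval : val h C A x I = ∑ z ∈ (cube A x).filter (fun z => Sat C I z), h z := by
    unfold Vale.Agent.P336.Expansion.val
    rw [Finset.sum_filter]
    refine Finset.sum_congr rfl (fun z _ => ?_)
    rw [prod_ind]
    split_ifs
    · rw [mul_one]
    · rw [mul_zero]
  rcases ((cube A x).filter (fun z => Sat C I z)).eq_empty_or_nonempty with h0 | ⟨y, hy⟩
  · left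
    rw [hval, h0, Finset.sum_empty]
  · right
    rw [Finset.mem_filter] at hy
    obtain ⟨hyc, hys⟩ := hy
    refine ⟨A.filter (fun v => ∀ z ∈ (cube A x).filter (fun z => Sat C I z), z v = y v),
      Finset.filter_subset _ _, y, hyc, ?_⟩
    rw [hval]
    congr 1
    ext z
    rw [Finset.mem_filter, mem_cube, mem_cube]
    constructor
    · rintro ⟨hz1, hz2⟩ v hv
      by_cases hvA : v ∈ A
      · have hvF : v ∈ A.filter (fun v => ∀ z ∈ (cube A x).filter (fun z => Sat C I z),
            z v = y v) := by
          by_contra hcon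
          exact hv (Finset.mem_sdiff.mpr ⟨hvA, hcon⟩)
        exact (Finset.mem_filter.mp hvF).2 z (Finset.mem_filter.mpr ⟨mem_cube.mpr hz1, hz2⟩)
      · rw [hz1 v hvA, mem_cube.mp hyc v hvA]
    · intro hz
      have hzA : ∀ v, v ∉ A → z v = x v := by
        intro v hv
        rw [hz v (fun h => hv (Finset.mem_sdiff.mp h).1), mem_cube.mp hyc v hv]
      refine ⟨hzA, ?_⟩
      intro i hi
      by_contra hcon
      push Not at hcon
      rcases hn i hi with ⟨v, hvS, hvA, hvne⟩ | hcard
      · apply hvne
        rw [← hzA v hvA]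
        exact hcon v hvS
      · obtain ⟨v0, hv0, hne0⟩ := hys i hi
        have hv0A : v0 ∈ A := by
          by_contra hv0A
          apply hne0
          rw [mem_cube.mp hyc v0 hv0A, ← hzA v0 hv0A]
          exact hcon v0 hv0
        have honly : ∀ v ∈ (C i).S, v ∈ A → v = v0 := by
          intro v hv hvA
          exact Finset.card_le_one.mp hcard v (Finset.mem_inter.mpr ⟨hv, hvA⟩) v0
            (Finset.mem_inter.mpr ⟨hv0, hv0A⟩)
        have hv0F : v0 ∈ A.filter (fun v => ∀ z ∈ (cube A x).filter (fun z => Sat C I z),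
            z v = y v) := by
          rw [Finset.mem_filter]
          refine ⟨hv0A, fun z' hz' => ?_⟩
          rw [Finset.mem_filter] at hz'
          obtain ⟨v1, hv1, hne1⟩ := hz'.2 i hi
          have hv1A : v1 ∈ A := by
            by_contra hv1A
            apply hne1
            rw [mem_cube.mp hz'.1 v1 hv1A, ← hzA v1 hv1A]
            exact hcon v1 hv1
          have e1 := honly v1 hv1 hv1A
          rw [e1] at hne1
          have hb : ∀ a b c : Bool, a ≠ c → b ≠ c → a = b := by decide
          exact hb _ _ _ hne1 hne0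
        have e2 : z v0 = y v0 := hz v0 (fun h => (Finset.mem_sdiff.mp h).2 hv0F)
        apply hne0
        rw [← e2]
        exact hcon v0 hv0

/-- the bound for the values -/
theorem abs_val_le {h : (V → Bool) → ℝ} (hh : ∀ z, |h z| ≤ 1) (C : ℕ → Cl V) (A : Finset V)
    (x : V → Bool) (I : Finset ℕ) (f : ℕ) (hn : ∀ i ∈ I, Narrow 1 (C i) A x) :
    |val h C A x I| ≤ min ((2 : ℝ) ^ A.card) ((2 : ℝ) ^ A.card * (1 / 2) ^ f +
      ∑ F ∈ A.powerset.filter (fun F => F.card < f),
        ∑ y ∈ cube A x, |E fun z => h (mix (A \ F) y z)|) := by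
  have hnn : 0 ≤ ∑ F ∈ A.powerset.filter (fun F => F.card < f),
        ∑ y ∈ cube A x, |E fun z => h (mix (A \ F) y z)| :=
    Finset.sum_nonneg (fun F _ => Finset.sum_nonneg (fun y _ => abs_nonneg _))
  have hp1 : (0 : ℝ) ≤ 2 ^ A.card * (1 / 2) ^ f := by positivity
  rcases val_structure h C A x I hn with h0 | ⟨F, hFA, y, hy, hv⟩
  · rw [h0, abs_zero]
    apply le_min (by positivity)
    linarith
  · rw [hv]
    have hcard : (A \ F).card + F.card = A.card := Finset.card_sdiff_add_card_eq_card hFA
    have h1 : |∑ z ∈ cube (A \ F) y, h z| ≤ (2 : ℝ) ^ (A \ F).card := by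
      calc |∑ z ∈ cube (A \ F) y, h z| ≤ ∑ z ∈ cube (A \ F) y, |h z| :=
            Finset.abs_sum_le_sum_abs _ _
        _ ≤ ∑ z ∈ cube (A \ F) y, (1 : ℝ) := Finset.sum_le_sum (fun z _ => hh z)
        _ = (2 : ℝ) ^ (A \ F).card := by
            rw [Finset.sum_const, card_cube', nsmul_eq_mul, mul_one]; push_cast; rfl
    apply le_min
    · refine h1.trans (pow_le_pow_right₀ (by norm_num) (by omega))
    · rcases lt_or_ge F.card f with hf | hf
      · have h2 : |∑ z ∈ cube (A \ F) y, h z| ≤
            ∑ y ∈ cube A x, |E fun z => h (mix (A \ F) y z)| := by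
          have h3 : cube (A \ F) y ⊆ cube A x := by
            intro z hz
            rw [mem_cube] at hz ⊢
            intro v hv
            rw [hz v (fun h => hv (Finset.mem_sdiff.mp h).1), mem_cube.mp hy v hv]
          have h4 : ∀ y' ∈ cube (A \ F) y, |E fun z => h (mix (A \ F) y' z)| =
              |E fun z => h (mix (A \ F) y z)| := by
            intro y' hy'
            have h5 : ∀ z, mix (A \ F) y' z = mix (A \ F) y z := by
              intro z
              funext v
              unfold mix
              by_cases hv : v ∈ A \ F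
              · rw [if_pos hv, if_pos hv]
              · rw [if_neg hv, if_neg hv]
                exact mem_cube.mp hy' v hv
            simp only [h5]
          calc |∑ z ∈ cube (A \ F) y, h z| =
              |(2 : ℝ) ^ (A \ F).card * E (fun z => h (mix (A \ F) y z))| := by rw [E_cube]
            _ = (2 : ℝ) ^ (A \ F).card * |E (fun z => h (mix (A \ F) y z))| := by
                rw [abs_mul, abs_of_pos (by positivity)]
            _ = ∑ y' ∈ cube (A \ F) y, |E fun z => h (mix (A \ F) y' z)| := by
                rw [Finset.sum_congr rfl h4, Finset.sum_const, card_cube', nsmul_eq_mul]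
                push_cast
                rfl
            _ ≤ _ := Finset.sum_le_sum_of_subset_of_nonneg h3 (fun _ _ _ => abs_nonneg _)
        have h6 : ∑ y ∈ cube A x, |E fun z => h (mix (A \ F) y z)| ≤
            ∑ F ∈ A.powerset.filter (fun F => F.card < f),
              ∑ y ∈ cube A x, |E fun z => h (mix (A \ F) y z)| :=
          Finset.single_le_sum (f := fun F => ∑ y ∈ cube A x, |E fun z => h (mix (A \ F) y z)|)
            (fun F _ => Finset.sum_nonneg (fun y _ => abs_nonneg _))
            (Finset.mem_filter.mpr ⟨Finset.mem_powerset.mpr hFA, hf⟩)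
        linarith
      · have h2 : (2 : ℝ) ^ (A \ F).card ≤ 2 ^ A.card * (1 / 2) ^ f := by
          have h3 : (2 : ℝ) ^ A.card = 2 ^ (A \ F).card * 2 ^ F.card := by
            rw [← pow_add, hcard]
          have h4 : (2 : ℝ) ^ f ≤ 2 ^ F.card := pow_le_pow_right₀ (by norm_num) hf
          rw [h3, one_div, inv_pow, ← div_eq_mul_inv, le_div_iff₀ (by positivity)]
          exact mul_le_mul_of_nonneg_left h4 (by positivity)
        linarith

theorem sum_Rst (G : Finset V → (V → Bool) → ℝ) :
    ∑ p ∈ Rst (univ : Finset (Finset V)), G p.1 p.2 =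
      ∑ A : Finset V, ∑ x ∈ univ.filter (fun x : V → Bool => ∀ v ∈ A, x v = false), G A x := by
  unfold Rst
  rw [Finset.sum_filter, Finset.sum_product]
  refine Finset.sum_congr rfl (fun A _ => ?_)
  rw [Finset.sum_filter]

theorem reindex (I : Finset ℕ) : ∃ e : ℕ → ℕ, (∀ i < I.card, e i ∈ I) ∧
    ∀ g : ℕ → ℝ, ∏ i ∈ range I.card, g (e i) = ∏ i ∈ I, g i := by
  refine ⟨fun i => if h : i < I.card then (I.equivFin.symm ⟨i, h⟩).1 else 0, ?_, ?_⟩
  · intro i hi
    simp only [dif_pos hi]
    exact (I.equivFin.symm ⟨i, hi⟩).2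
  · intro g
    rw [Finset.prod_range]
    have h1 : ∀ i : Fin I.card, g (if h : (i : ℕ) < I.card then
        (I.equivFin.symm ⟨i, h⟩).1 else 0) = g (I.equivFin.symm i).1 := by
      intro i
      rw [dif_pos i.2]
    rw [Finset.prod_congr rfl (fun i _ => h1 i),
      Equiv.prod_comp I.equivFin.symm (fun x : I => g x.1), Finset.prod_coe_sort]

/-- expansion of a CNF of width `r`, multiplied by `h` -/
theorem narrow_expansion {r f : ℕ} {q : ℝ} (hq : 0 < q) (hrq : (r : ℝ) * q ≤ 1 / 2)
    (I : Finset ℕ) (C : ℕ → Cl V) (hC : ∀ i ∈ I, (C i).S.card ≤ r) (h : (V → Bool) → ℝ)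
    (hh : ∀ x, |h x| ≤ 1) :
    (1 + q) ^ Fintype.card V * |E fun x => h x * ∏ i ∈ I, ind (C i) x| ≤
      2 * ∑ A : Finset V, q ^ A.card * min 1 ((1 / 2) ^ f +
        ∑ F ∈ A.powerset.filter (fun F => F.card < f),
          E fun x => |E fun z => h (mix (A \ F) x z)|) := by
  obtain ⟨e, he1, he2⟩ := reindex I
  have hexp := expansion (univ : Finset (Finset V)) (fun A _ D _ => mem_univ D) q hq.le 1 I.card
    (fun i => C (e i)) (fun i hi => sum_two_le hq hrq _ (hC _ (he1 i hi))) h
    (fun A x => min ((2 : ℝ) ^ A.card) ((2 : ℝ) ^ A.card * (1 / 2) ^ f +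
      ∑ F ∈ A.powerset.filter (fun F => F.card < f),
        ∑ y ∈ cube A x, |E fun z => h (mix (A \ F) y z)|))
    (fun p _ J _ hJ => abs_val_le hh (fun i => C (e i)) p.1 p.2 J f hJ)
  rw [sum_Rst (fun A x => q ^ A.card * |val h (fun i => C (e i)) A x (range I.card)|),
    sum_Rst (fun A x => q ^ A.card * min ((2 : ℝ) ^ A.card) ((2 : ℝ) ^ A.card * (1 / 2) ^ f +
      ∑ F ∈ A.powerset.filter (fun F => F.card < f),
        ∑ y ∈ cube A x, |E fun z => h (mix (A \ F) y z)|))] at hexp
  have hN : (0 : ℝ) < 2 ^ Fintype.card V := by positivity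
  -- left side
  have hleft : 2 ^ Fintype.card V * ((1 + q) ^ Fintype.card V *
      |E fun x => h x * ∏ i ∈ I, ind (C i) x|) ≤
      ∑ A : Finset V, ∑ x ∈ univ.filter (fun x : V → Bool => ∀ v ∈ A, x v = false),
        q ^ A.card * |val h (fun i => C (e i)) A x (range I.card)| := by
    have h1 : ∑ A : Finset V, q ^ A.card = (1 + q) ^ Fintype.card V := by
      have := Finset.sum_pow_mul_eq_add_pow q 1 (univ : Finset V)
      simp only [one_pow, mul_one, Finset.powerset_univ, Finset.card_univ] at this
      rw [this, add_comm]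
    have h2 : ∀ A : Finset V, q ^ A.card * (2 ^ Fintype.card V *
        |E fun x => h x * ∏ i ∈ I, ind (C i) x|) ≤
        ∑ x ∈ univ.filter (fun x : V → Bool => ∀ v ∈ A, x v = false),
        q ^ A.card * |val h (fun i => C (e i)) A x (range I.card)| := by
      intro A
      rw [← Finset.mul_sum]
      apply mul_le_mul_of_nonneg_left _ (by positivity)
      have h3 : 2 ^ Fintype.card V * |E fun x => h x * ∏ i ∈ I, ind (C i) x| =
          |∑ x ∈ univ.filter (fun x : V → Bool => ∀ v ∈ A, x v = false),
            val h (fun i => C (e i)) A x (range I.card)| := by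
        unfold Vale.Agent.P336.Expansion.val
        rw [sum_cubes A (fun z => h z * ∏ i ∈ range I.card, ind (C (e i)) z)]
        have h4 : ∀ z, ∏ i ∈ range I.card, ind (C (e i)) z = ∏ i ∈ I, ind (C i) z :=
          fun z => he2 (fun j => ind (C j) z)
        simp only [h4]
        unfold E
        rw [card_fun, abs_div, abs_of_pos hN, mul_div_cancel₀ _ hN.ne']
      rw [h3]
      exact Finset.abs_sum_le_sum_abs _ _
    calc 2 ^ Fintype.card V * ((1 + q) ^ Fintype.card V *
        |E fun x => h x * ∏ i ∈ I, ind (C i) x|) =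
        ∑ A : Finset V, q ^ A.card * (2 ^ Fintype.card V *
          |E fun x => h x * ∏ i ∈ I, ind (C i) x|) := by
          rw [← Finset.sum_mul, h1]; ring
      _ ≤ _ := Finset.sum_le_sum (fun A _ => h2 A)
  -- right side
  have hright : ∀ A : Finset V,
      ∑ x ∈ univ.filter (fun x : V → Bool => ∀ v ∈ A, x v = false),
        q ^ A.card * min ((2 : ℝ) ^ A.card) ((2 : ℝ) ^ A.card * (1 / 2) ^ f +
          ∑ F ∈ A.powerset.filter (fun F => F.card < f),
            ∑ y ∈ cube A x, |E fun z => h (mix (A \ F) y z)|) ≤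
      2 ^ Fintype.card V * (q ^ A.card * min 1 ((1 / 2) ^ f +
        ∑ F ∈ A.powerset.filter (fun F => F.card < f),
          E fun x => |E fun z => h (mix (A \ F) x z)|)) := by
    intro A
    rw [← Finset.mul_sum]
    have h1 : 2 ^ Fintype.card V * (q ^ A.card * min 1 ((1 / 2) ^ f +
        ∑ F ∈ A.powerset.filter (fun F => F.card < f),
          E fun x => |E fun z => h (mix (A \ F) x z)|)) =
        q ^ A.card * min (2 ^ Fintype.card V) (2 ^ Fintype.card V * ((1 / 2) ^ f +
        ∑ F ∈ A.powerset.filter (fun F => F.card < f),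
          E fun x => |E fun z => h (mix (A \ F) x z)|)) := by
      rw [mul_left_comm, mul_min_of_nonneg _ _ hN.le, mul_one]
    rw [h1]
    apply mul_le_mul_of_nonneg_left _ (by positivity)
    have hcan : ((univ.filter (fun x : V → Bool => ∀ v ∈ A, x v = false)).card : ℝ) *
        2 ^ A.card = 2 ^ Fintype.card V := by
      exact_mod_cast card_canonical A
    apply le_min
    · calc ∑ x ∈ univ.filter (fun x : V → Bool => ∀ v ∈ A, x v = false),
          min ((2 : ℝ) ^ A.card) _ ≤
          ∑ x ∈ univ.filter (fun x : V → Bool => ∀ v ∈ A, x v = false), (2 : ℝ) ^ A.card :=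
            Finset.sum_le_sum (fun x _ => min_le_left _ _)
        _ = 2 ^ Fintype.card V := by rw [Finset.sum_const, nsmul_eq_mul, hcan]
    · calc ∑ x ∈ univ.filter (fun x : V → Bool => ∀ v ∈ A, x v = false),
          min ((2 : ℝ) ^ A.card) ((2 : ℝ) ^ A.card * (1 / 2) ^ f +
          ∑ F ∈ A.powerset.filter (fun F => F.card < f),
            ∑ y ∈ cube A x, |E fun z => h (mix (A \ F) y z)|) ≤
          ∑ x ∈ univ.filter (fun x : V → Bool => ∀ v ∈ A, x v = false),
            ((2 : ℝ) ^ A.card * (1 / 2) ^ f +
          ∑ F ∈ A.powerset.filter (fun F => F.card < f),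
            ∑ y ∈ cube A x, |E fun z => h (mix (A \ F) y z)|) :=
            Finset.sum_le_sum (fun x _ => min_le_right _ _)
        _ = 2 ^ Fintype.card V * ((1 / 2) ^ f +
          ∑ F ∈ A.powerset.filter (fun F => F.card < f),
            E fun x => |E fun z => h (mix (A \ F) x z)|) := by
            rw [Finset.sum_add_distrib, Finset.sum_const, nsmul_eq_mul, ← mul_assoc, hcan,
              mul_add, Finset.sum_comm, Finset.mul_sum]
            congr 1
            refine Finset.sum_congr rfl (fun F _ => ?_)
            rw [sum_cubes A (fun y => |E fun z => h (mix (A \ F) y z)|)]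
            unfold E
            rw [card_fun, mul_div_cancel₀ _ hN.ne']
  have hfin : 2 ^ Fintype.card V * ((1 + q) ^ Fintype.card V *
      |E fun x => h x * ∏ i ∈ I, ind (C i) x|) ≤
      2 ^ Fintype.card V * (2 * ∑ A : Finset V, q ^ A.card * min 1 ((1 / 2) ^ f +
        ∑ F ∈ A.powerset.filter (fun F => F.card < f),
          E fun x => |E fun z => h (mix (A \ F) x z)|)) := by
    refine hleft.trans (hexp.trans ?_)
    have h1 := Finset.sum_le_sum (fun A (_ : A ∈ (univ : Finset (Finset V))) => hright A)
    rw [← Finset.mul_sum] at h1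
    linarith
  exact le_of_mul_le_mul_left hfin hN

end

end Vale.Agent.P336.R2.H524
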