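import Mathlib.Analysis.SpecialFunctions.Pow.Real
import Mathlib.Analysis.SpecialFunctions.Pow.NNReal
import Mathlib.Analysis.SpecialFunctions.Log.Base
import Mathlib.Data.Nat.Sqrt
import Mathlib.Tactic

/-!
# P336: numerical part of the theorem on limited views
-/

set_option autoImplicit false

namespace Vale.Agent.P336.R2.H524

/-- the final contradiction, with `x ≤ N / 2 ^ (30 p)` -/
theorem final_num {N p a S : ℕ} {x : ℝ} (hp : 4 ≤ p) (hN : 2 ^ (30 * p) ≤ N)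
    (hx0 : 0 ≤ x) (hx : x * 2 ^ (30 * p) ≤ N) (ha : (N : ℝ) ≤ 2 ^ (13 * p) * a)
    (h : (2 : ℝ) ^ a ≤ p * (2 * (S : ℝ) + 1) ^ (2 ^ p)) : (2 : ℝ) ^ x ≤ S := by
  by_contra hcon
  push Not at hcon
  have hN' : (2 : ℝ) ^ (30 * p) ≤ N := by exact_mod_cast hN
  have hp4 : (4 : ℝ) ≤ p := by exact_mod_cast hp
  have h1 : (2 : ℝ) * S + 1 ≤ 2 ^ (x + 2) := by
    have e : (2 : ℝ) ^ (x + 2) = 2 ^ x * 4 := by
      rw [Real.rpow_add (by norm_num)]; norm_num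
    have h2 : (1 : ℝ) ≤ 2 ^ x := Real.one_le_rpow (by norm_num) hx0
    rw [e]; linarith
  have h2 : (2 * (S : ℝ) + 1) ^ (2 ^ p) ≤ (2 : ℝ) ^ ((x + 2) * 2 ^ p) := by
    calc (2 * (S : ℝ) + 1) ^ (2 ^ p) ≤ ((2 : ℝ) ^ (x + 2)) ^ (2 ^ p) :=
          pow_le_pow_left₀ (by positivity) h1 _
      _ = _ := by
          rw [← Real.rpow_natCast, ← Real.rpow_mul (by norm_num)]
          push_cast
          rfl
  have h3 : (p : ℝ) ≤ 2 ^ (p : ℝ) := by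
    rw [Real.rpow_natCast]
    exact_mod_cast Nat.lt_two_pow_self.le
  have h4 : (2 : ℝ) ^ (a : ℝ) ≤ 2 ^ ((p : ℝ) + (x + 2) * 2 ^ p) := by
    rw [Real.rpow_add (by norm_num), Real.rpow_natCast]
    refine h.trans ?_
    exact mul_le_mul h3 h2 (by positivity) (by positivity)
  have h5 : (a : ℝ) ≤ (p : ℝ) + (x + 2) * 2 ^ p := by
    rwa [Real.rpow_le_rpow_left_iff (by norm_num)] at h4
  -- N ≤ 2^(13p) (p + (x+2) 2^p)
  have h6 : (N : ℝ) ≤ 2 ^ (13 * p) * ((p : ℝ) + (x + 2) * 2 ^ p) :=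
    ha.trans (mul_le_mul_of_nonneg_left h5 (by positivity))
  have h7 : (2 : ℝ) ^ (30 * p) = 2 ^ (13 * p) * 2 ^ p * 2 ^ (16 * p) := by
    rw [← pow_add, ← pow_add]; congr 1; ring
  have h8 : (16 : ℝ) ≤ 2 ^ (16 * p) := by
    calc (16 : ℝ) = 2 ^ 4 := by norm_num
      _ ≤ 2 ^ (16 * p) := pow_le_pow_right₀ (by norm_num) (by omega)
  have h9 : (p : ℝ) ≤ 2 ^ p := by exact_mod_cast Nat.lt_two_pow_self.le
  set A : ℝ := 2 ^ (13 * p) with hA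
  set B : ℝ := 2 ^ p with hB
  set C : ℝ := 2 ^ (16 * p) with hC
  have hA0 : 0 < A := by positivity
  have hB0 : 0 < B := by positivity
  rw [h7] at hN' hx
  -- p + (x+2) B ≤ (x + 3) B
  have h10 : A * ((p : ℝ) + (x + 2) * B) ≤ A * ((x + 3) * B) := by
    apply mul_le_mul_of_nonneg_left _ hA0.le
    nlinarith
  have h11 : (N : ℝ) ≤ A * B * (x + 3) := by nlinarith
  have hAB : 0 < A * B := by positivity
  -- x A B C ≤ N, A B C ≤ N
  have h12 : x * (A * B) * 16 ≤ N := by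
    calc x * (A * B) * 16 ≤ x * (A * B) * C := mul_le_mul_of_nonneg_left h8 (by positivity)
      _ = x * (A * B * C) := by ring
      _ ≤ N := hx
  have h13 : (A * B) * 16 ≤ N := by
    calc (A * B) * 16 ≤ (A * B) * C := mul_le_mul_of_nonneg_left h8 hAB.le
      _ ≤ N := hN'
  nlinarith

/-- numerical part -/
theorem numerics : ∃ C₀ : ℝ, ∀ N w k : ℕ, 1 ≤ w → 1 ≤ k →
    (k:ℝ) * (2:ℝ) ^ (C₀ * Real.sqrt w) ≤ N →
    ∃ p m : ℕ, 4 ≤ p ∧ m = N / 4 / p ∧ p * m ≤ N / 4 ∧ p ≤ N / 4 ∧ w * N ≤ p ^ 3 * m ∧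
      k * 2 ^ (20 * p) ≤ m ∧ ∀ a S : ℕ, m ≤ 2 ^ (9 * p) * a →
        (2:ℝ) ^ a ≤ p * (2 * S + 1) ^ (2 ^ p) →
        (2:ℝ) ^ ((N:ℝ) / (2:ℝ) ^ (C₀ * Real.sqrt w)) ≤ S := by
  refine ⟨240, fun N w k hw hk hN => ?_⟩
  have hw1 : (1 : ℝ) ≤ w := by exact_mod_cast hw
  have hk1 : (1 : ℝ) ≤ k := by exact_mod_cast hk
  have hsw : (1 : ℝ) ≤ Real.sqrt w := Real.one_le_sqrt.mpr hw1
  obtain ⟨p, hp⟩ : ∃ p : ℕ, p = Nat.sqrt (14 * w) + 4 := ⟨_, rfl⟩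
  have hp4 : 4 ≤ p := by omega
  have hp4' : (4 : ℝ) ≤ p := by exact_mod_cast hp4
  have hpw : (p : ℝ) ≤ 8 * Real.sqrt w := by
    have h1 : ((Nat.sqrt (14 * w) : ℕ) : ℝ) ≤ 4 * Real.sqrt w := by
      have h2 : (Nat.sqrt (14 * w)) ^ 2 ≤ 14 * w := Nat.sqrt_le' _
      have h3 : ((Nat.sqrt (14 * w) : ℕ) : ℝ) ^ 2 ≤ 14 * w := by exact_mod_cast h2
      have h4 : (4 * Real.sqrt w) ^ 2 = 16 * w := by
        rw [mul_pow, Real.sq_sqrt (by positivity)]; norm_num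
      apply le_of_sq_le_sq _ (by positivity)
      rw [h4]; linarith
    rw [hp]; push_cast; linarith
  have hp14 : 14 * w ≤ p ^ 2 := by
    have h1 : 14 * w < (Nat.sqrt (14 * w) + 1) ^ 2 := Nat.lt_succ_sqrt' _
    have h2 : (Nat.sqrt (14 * w) + 1) ^ 2 ≤ p ^ 2 := Nat.pow_le_pow_left (by omega) 2
    omega
  have h30 : (2 : ℝ) ^ (30 * p) ≤ 2 ^ (240 * Real.sqrt w) := by
    rw [← Real.rpow_natCast]
    apply Real.rpow_le_rpow_of_exponent_le (by norm_num)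
    push_cast; linarith
  have hkN : (k : ℝ) * 2 ^ (30 * p) ≤ N :=
    (mul_le_mul_of_nonneg_left h30 (by linarith)).trans hN
  have hkNn : k * 2 ^ (30 * p) ≤ N := by exact_mod_cast hkN
  have hNn : 2 ^ (30 * p) ≤ N := le_trans (Nat.le_mul_of_pos_left _ hk) hkNn
  have hp2 : p < 2 ^ p := Nat.lt_two_pow_self
  obtain ⟨m, hm⟩ : ∃ m : ℕ, m = N / 4 / p := ⟨_, rfl⟩
  have hm2 : m = N / (4 * p) := by rw [hm, Nat.div_div_eq_div_mul]
  have hp0 : 0 < 4 * p := by omega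
  have hmN : N < 4 * p * (m + 1) := by
    rw [hm2]
    exact Nat.lt_mul_div_succ N hp0
  -- powers
  have h5p : 4 * p ≤ 2 ^ (10 * p) := by
    calc 4 * p ≤ 2 ^ 2 * 2 ^ p := by nlinarith
      _ = 2 ^ (2 + p) := by rw [pow_add]
      _ ≤ 2 ^ (10 * p) := Nat.pow_le_pow_right (by norm_num) (by omega)
  have h8p : 8 * p ≤ 2 ^ (4 * p) := by
    calc 8 * p ≤ 2 ^ 3 * 2 ^ p := by nlinarith
      _ = 2 ^ (3 + p) := by rw [pow_add]
      _ ≤ 2 ^ (4 * p) := Nat.pow_le_pow_right (by norm_num) (by omega)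
  have h3p : p ^ 3 ≤ N := by
    calc p ^ 3 ≤ (2 ^ p) ^ 3 := Nat.pow_le_pow_left hp2.le 3
      _ = 2 ^ (p * 3) := by rw [← pow_mul]
      _ ≤ 2 ^ (30 * p) := Nat.pow_le_pow_right (by norm_num) (by omega)
      _ ≤ N := hNn
  have hkm : k * 2 ^ (20 * p) ≤ m := by
    by_contra hcon
    push Not at hcon
    have h1 : 4 * p * (m + 1) ≤ 2 ^ (10 * p) * (k * 2 ^ (20 * p)) :=
      Nat.mul_le_mul h5p hcon
    have h2 : 2 ^ (10 * p) * (k * 2 ^ (20 * p)) = k * 2 ^ (30 * p) := by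
      rw [show 30 * p = 10 * p + 20 * p by ring, pow_add]; ring
    omega
  have hm1 : 1 ≤ m := le_trans (Nat.mul_pos hk (by positivity)) hkm
  refine ⟨p, m, hp4, hm, ?_, ?_, ?_, hkm, ?_⟩
  · rw [hm]; exact Nat.mul_div_le (N / 4) p
  · rw [Nat.le_div_iff_mul_le (by norm_num)]
    have h1 : 2 ^ (10 * p) ≤ 2 ^ (30 * p) := Nat.pow_le_pow_right (by norm_num) (by omega)
    omega
  · have h1 : 14 * w * N ≤ p ^ 2 * N := Nat.mul_le_mul_right N hp14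
    have h2 : p ^ 2 * N ≤ p ^ 2 * (4 * p * (m + 1)) := Nat.mul_le_mul_left _ hmN.le
    have h3 : p ^ 2 * (4 * p * (m + 1)) = 4 * (p ^ 3 * m) + 4 * p ^ 3 := by ring
    have h4 : N ≤ w * N := Nat.le_mul_of_pos_left _ hw
    have h5 : 14 * w * N = 14 * (w * N) := by ring
    omega
  · intro a S ha h
    have hN0 : (0 : ℝ) ≤ N := Nat.cast_nonneg _
    have hpos : (0 : ℝ) < 2 ^ (240 * Real.sqrt w) := by positivity
    have hx0 : 0 ≤ (N : ℝ) / 2 ^ (240 * Real.sqrt w) := div_nonneg hN0 hpos.le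
    refine final_num hp4 hNn hx0 ?_ ?_ h
    · calc (N : ℝ) / 2 ^ (240 * Real.sqrt w) * 2 ^ (30 * p) ≤
          (N : ℝ) / 2 ^ (240 * Real.sqrt w) * 2 ^ (240 * Real.sqrt w) :=
            mul_le_mul_of_nonneg_left h30 hx0
        _ = N := div_mul_cancel₀ _ hpos.ne'
    · have h1 : N ≤ 2 ^ (13 * p) * a := by
        calc N ≤ 4 * p * (m + 1) := hmN.le
          _ ≤ 4 * p * (2 * m) := Nat.mul_le_mul_left _ (by omega)
          _ = 8 * p * m := by ring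
          _ ≤ 2 ^ (4 * p) * (2 ^ (9 * p) * a) := Nat.mul_le_mul h8p ha
          _ = 2 ^ (13 * p) * a := by
              rw [show 13 * p = 4 * p + 9 * p by ring, pow_add]; ring
      exact_mod_cast h1

end Vale.Agent.P336.R2.H524
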